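import Mathlib
import Vale.Agent.Lib.P042.Powers

namespace Vale.Agent.Results.P042.B_CubeDifferences

open Vale.Agent.Lib.P042

/-- The residues modulo 91 used as restricted digits. -/
def resList : List ℕ := [0, 10, 15, 20, 25, 30, 35, 40, 45, 50, 55, 75, 81, 86]

/-- For each prime factor `p` of 91: the residues modulo `p` that are not 3-th powers modulo `p`. -/
def certList : List (ℕ × List ℕ) := [(7, [2, 3, 4, 5]), (13, [2, 3, 4, 6, 7, 9, 10, 11])]

theorem cert_ok : ∀ pe ∈ certList, pe.1 ∣ 91 ∧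
    ∀ e ∈ pe.2, ∀ x : ZMod pe.1, x ^ 3 ≠ (e : ZMod pe.1) := by
  intro pe hpe
  simp only [certList, List.mem_cons, List.not_mem_nil, or_false] at hpe
  rcases hpe with rfl | rfl
  · exact ⟨by norm_num, by decide⟩
  · exact ⟨by norm_num, by decide⟩

theorem check_ok : nrCheck 91 certList resList = true := by decide

theorem lt_ok : ∀ a ∈ resList, a < 91 := by decide

theorem card_ok : resList.toFinset.card = 14 := by decide

theorem sqfree_ok : Squarefree 91 := by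
  have h7 : Nat.Prime 7 := by norm_num
  have h13 : Nat.Prime 13 := by norm_num
  have e : (91 : ℕ) = 7 * (13) := by norm_num
  rw [e, Nat.squarefree_mul_iff]
  exact ⟨by norm_num, h7.squarefree, h13.squarefree⟩

theorem num_ok : (861 / 1000 : ℝ) < (2 + Real.log 14 / Real.log 91) / 3 := by
  have h1 : (0 : ℝ) < Real.log 91 := Real.log_pos (by norm_num)
  have h2 : (117 : ℝ) * Real.log 91 < 200 * Real.log 14 := by
    have e1 : (117 : ℝ) * Real.log 91 = Real.log ((91 : ℝ) ^ 117) := by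
      rw [Real.log_pow]
      norm_num
    have e2 : (200 : ℝ) * Real.log 14 = Real.log ((14 : ℝ) ^ 200) := by
      rw [Real.log_pow]
      norm_num
    rw [e1, e2]
    apply Real.log_lt_log (by positivity)
    norm_num
  have h3 : (117 / 200 : ℝ) < Real.log 14 / Real.log 91 := by
    rw [lt_div_iff₀ h1]
    linarith
  norm_num at h3 ⊢
  linarith

theorem main_ok :
    ∀ N : ℕ, 1 ≤ N → ∃ A : Finset ℕ, A ⊆ Finset.Icc 1 N ∧
      (∀ a ∈ A, ∀ b ∈ A, ∀ n : ℕ, 1 ≤ n → (a : ℤ) - (b : ℤ) ≠ (n : ℤ) ^ 3) ∧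
      (N : ℝ) ^ ((2 + Real.log 14 / Real.log 91) / 3) / 115934 ≤ (A.card : ℝ) := by
  intro N hN
  have hR : ∀ a ∈ resList.toFinset, ∀ b ∈ resList.toFinset, a ≠ b →
      ∀ n : ℤ, ¬ ((91 : ℕ) : ℤ) ∣ (a : ℤ) - b - n ^ (2 + 1) := by
    intro a ha b hb
    exact hR_of_check_pow cert_ok lt_ok check_ok a (List.mem_toFinset.mp ha) b
      (List.mem_toFinset.mp hb)
  have hne : resList.toFinset.Nonempty := by
    rw [← Finset.card_pos, card_ok]
    norm_num
  obtain ⟨A, hA1, hA2, hA3⟩ := power_lower (d := 2) (m := 91) (R := resList.toFinset)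
    (by norm_num) sqfree_ok (fun a ha => lt_ok a (List.mem_toFinset.mp ha)) hR hne N hN
  refine ⟨A, hA1, hA2, ?_⟩
  rw [card_ok] at hA3
  have e1 : (((2 : ℕ) : ℝ) + Real.log ((14 : ℕ) : ℝ) / Real.log ((91 : ℕ) : ℝ)) / (((2 : ℕ) : ℝ) + 1)
      = (2 + Real.log 14 / Real.log 91) / 3 := by
    norm_num
  have e2 : (((14 : ℕ) : ℝ) * (((91 : ℕ) : ℝ)) ^ 2) = 115934 := by norm_num
  rw [e1, e2] at hA3
  exact hA3

/-- For every `N ≥ 1` there is a subset of `{1, …, N}` with no two elements differing by a positive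
perfect cube, of size at least `N ^ γ / 115934` with `γ = (2 + log 14 / log 91) / 3 > 0.861`. -/
theorem result :
    (∀ N : ℕ, 1 ≤ N → ∃ A : Finset ℕ, A ⊆ Finset.Icc 1 N ∧
      (∀ a ∈ A, ∀ b ∈ A, ∀ n : ℕ, 1 ≤ n → (a : ℤ) - (b : ℤ) ≠ (n : ℤ) ^ 3) ∧
      (N : ℝ) ^ ((2 + Real.log 14 / Real.log 91) / 3) / 115934 ≤ (A.card : ℝ)) ∧
    (861 / 1000 : ℝ) < (2 + Real.log 14 / Real.log 91) / 3 :=
  ⟨main_ok, num_ok⟩

end Vale.Agent.Results.P042.B_CubeDifferences
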